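import Vale.Agent.P219W.Rows

/-!
# P219W: metrics of constant curvature in normal coordinates agree
-/

set_option linter.all false
set_option maxSynthPendingDepth 3

open scoped ContDiff RealInnerProductSpace Topology
open Set Filter

namespace Vale.Agent.P219W78

open Vale.Agent.P219.RG

variable {V : Type} [NormedAddCommGroup V] [InnerProductSpace ℝ V] [FiniteDimensional ℝ V]
  {H : V → V →L[ℝ] V →L[ℝ] ℝ}

theorem eq_of_ne {F : Type} [TopologicalSpace F] [T2Space F] {f : ℝ → F} (hf : Continuous f) {a : F}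
    (h : ∀ t, t ≠ 0 → f t = a) (t : ℝ) : f t = a := by
  have := Continuous.ext_on (dense_compl_singleton (0 : ℝ)) hf continuous_const fun s hs => h s hs
  exact congrFun this t

theorem contH (h : IsMetricOn H univ) : Continuous H :=
  continuous_iff_continuousAt.2 fun u => (h.differentiableAt (mem_univ u)).continuousAt

theorem contB (h : IsMetricOn H univ) : Continuous (chrisB H) :=
  continuous_iff_continuousAt.2 fun u => (h.differentiableAt_chrisB (mem_univ u)).continuousAt

theorem ray (h : IsMetricOn H univ) (hG : ∀ x w, H x x w = ⟪x, w⟫) (t : ℝ) (v w : V) :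
    H (t • v) v w = ⟪v, w⟫ := by
  have hc := contH h
  refine eq_of_ne (f := fun t : ℝ => H (t • v) v w) (by fun_prop) (fun s hs => ?_) t
  have := hG (s • v) w
  rw [map_smul, ContinuousLinearMap.smul_apply, inner_smul_left] at this
  exact mul_left_cancel₀ hs this

theorem d_gauss (h : IsMetricOn H univ) (hG : ∀ x w, H x x w = ⟪x, w⟫) (x z w : V) :
    fderiv ℝ H x z x w + H x z w = ⟪z, w⟫ := by
  have h1 := ((h.differentiableAt (mem_univ x)).hasFDerivAt.clm_apply (hasFDerivAt_id x)).clm_apply
    (hasFDerivAt_const w x)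
  have h2 : HasFDerivAt (fun y : V => H y y w) (innerSL ℝ w) x := by
    have e : (fun y : V => H y y w) = fun y => innerSL ℝ w y := by
      funext y; rw [hG, innerSL_apply_apply, real_inner_comm]
    rw [e]
    exact (innerSL ℝ w).hasFDerivAt
  have := congrArg (fun L : V →L[ℝ] ℝ => L z) (h1.unique h2)
  simp only [innerSL_apply_apply] at this
  rw [real_inner_comm, ← this]
  simp [add_comm]

theorem chris_rad (h : IsMetricOn H univ) (hG : ∀ x w, H x x w = ⟪x, w⟫) (t : ℝ) (v : V) :
    chrisB H (t • v) v v = 0 := by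
  have h0 : ∀ x, chris H x x x = 0 := fun x => by
    refine h.ext_of (mem_univ x) fun z => ?_
    have a := d_gauss h hG x x z
    have b := d_gauss h hG x z x
    rw [h.symm x (mem_univ x) z x, hG, real_inner_comm] at b
    rw [hG] at a
    rw [h.chris_spec (mem_univ x)]
    simp only [map_zero, ContinuousLinearMap.zero_apply]
    linarith
  have hc := contB h
  refine eq_of_ne (f := fun t : ℝ => chrisB H (t • v) v v) (by fun_prop) (fun s hs => ?_) t
  have := h0 (s • v)
  rw [← chrisB_apply, map_smul, map_smul, ContinuousLinearMap.smul_apply] at this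
  exact (smul_eq_zero.1 ((smul_eq_zero.1 this).resolve_left hs)).resolve_left hs

theorem chrisB_symm (h : IsMetricOn H univ) (u v w : V) : chrisB H u v w = chrisB H u w v := by
  rw [chrisB_apply, chrisB_apply, h.chris_symm (mem_univ u)]

theorem dB_symm (h : IsMetricOn H univ) (u x v w : V) :
    fderiv ℝ (chrisB H) u x v w = fderiv ℝ (chrisB H) u x w v := by
  rw [← h.fderiv_chris (mem_univ u), ← h.fderiv_chris (mem_univ u)]
  have : (fun p => chris H p v w) = fun p => chris H p w v :=
    funext fun p => h.chris_symm (mem_univ p) _ _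
  rw [this]

theorem lin_rad (h : IsMetricOn H univ) (hG : ∀ x w, H x x w = ⟪x, w⟫) (t : ℝ) (v w : V) :
    fderiv ℝ (fun p => chris H p v v) (t • v) (t • w) + (2 : ℝ) • chris H (t • v) v w = 0 := by
  have h0 : HasFDerivAt (fun x : V => t • x) (t • ContinuousLinearMap.id ℝ V) v :=
    (hasFDerivAt_id v).const_smul t
  have h1 := ((HasFDerivAt.comp (f := fun x : V => t • x) (g := chrisB H) v
    (h.differentiableAt_chrisB (mem_univ _)).hasFDerivAt h0).clm_apply
    (hasFDerivAt_id v)).clm_apply (hasFDerivAt_id v)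
  have h2 : HasFDerivAt (fun x : V => chrisB H (t • x) x x) (0 : V →L[ℝ] V) v := by
    simp only [chris_rad h hG]
    exact hasFDerivAt_const _ _
  have := congrArg (fun L : V →L[ℝ] V => L w) (h1.unique h2)
  rw [h.fderiv_chris (mem_univ _), ← chrisB_apply, two_smul]
  nth_rewrite 1 [chrisB_symm h]
  simp only [ContinuousLinearMap.zero_apply] at this
  rw [← this]
  simp
  abel

theorem pair_symm (h : IsMetricOn H univ) (u x y z : V) :
    H u (curv H u x y y) z = H u (curv H u z y y) x := by
  have hu := mem_univ u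
  have sk : ∀ a b c d, H u (curv H u a b c) d = -H u (curv H u a b d) c := fun a b c d => by
    have e := h.curv_skew hu a b (c + d)
    have e1 := h.curv_skew hu a b c
    have e2 := h.curv_skew hu a b d
    have : curv H u a b (c + d) = curv H u a b c + curv H u a b d := by
      simp only [h.curv_eq hu, map_add]; abel
    rw [this] at e
    simp only [map_add, ContinuousLinearMap.add_apply] at e
    linarith
  have bi : curv H u x y z + curv H u z x y = curv H u z y x := by
    simp only [h.curv_eq hu]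
    rw [dB_symm h u x y z, dB_symm h u y x z, dB_symm h u z x y, chrisB_symm h u y z,
      chrisB_symm h u x z, chrisB_symm h u x y]
    abel
  have e := congrArg (fun a => H u a y) bi
  simp only [map_add, ContinuousLinearMap.add_apply, h.curv_skew hu] at e
  rw [sk x y y z, sk z y y x]
  linarith

theorem curv_form (h : IsMetricOn H univ) {κ : ℝ}
    (hK : ∀ x v w, H x (curv H x v w w) v = κ * (H x v v * H x w w - H x v w ^ 2)) (u x y : V) :
    curv H u x y y = (κ * H u y y) • x - (κ * H u x y) • y := by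
  have hu := mem_univ u
  refine h.ext_of hu fun z => ?_
  have e := hK u (x + z) y
  have : curv H u (x + z) y y = curv H u x y y + curv H u z y y := by
    simp only [h.curv_eq hu, map_add, ContinuousLinearMap.add_apply]; abel
  rw [this] at e
  simp only [map_add, ContinuousLinearMap.add_apply, hK, ← pair_symm h u x y z, h.symm u hu z x]
    at e
  simp only [map_sub, map_smul, ContinuousLinearMap.sub_apply, ContinuousLinearMap.smul_apply,
    smul_eq_mul, h.symm u hu y z]
  linarith

/-- the linear system satisfied by `|J|², ⟨J, J'⟩, |J'|²` -/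
noncomputable def sys (c : ℝ) : ℝ × ℝ × ℝ →L[ℝ] ℝ × ℝ × ℝ :=
  ((2 : ℝ) • (ContinuousLinearMap.fst ℝ ℝ ℝ).comp (ContinuousLinearMap.snd ℝ ℝ (ℝ × ℝ))).prod
    (((ContinuousLinearMap.snd ℝ ℝ ℝ).comp (ContinuousLinearMap.snd ℝ ℝ (ℝ × ℝ)) -
      c • ContinuousLinearMap.fst ℝ ℝ (ℝ × ℝ)).prod
    (-(2 * c) • (ContinuousLinearMap.fst ℝ ℝ ℝ).comp (ContinuousLinearMap.snd ℝ ℝ (ℝ × ℝ))))

theorem sol (h : IsMetricOn H univ) (hG : ∀ x w, H x x w = ⟪x, w⟫) {κ : ℝ}
    (hK : ∀ x v w, H x (curv H x v w w) v = κ * (H x v v * H x w w - H x v w ^ 2)) {v w : V}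
    (hvw : ⟪v, w⟫ = 0) : ∃ y : ℝ → ℝ × ℝ × ℝ, (∀ t, HasDerivAt y (sys (κ * ⟪v, v⟫) (y t)) t) ∧
      y 0 = (0, 0, ⟪w, w⟫) ∧ (y 1).1 = H v w w := by
  set c : ℝ → V := fun t => t • v with hc
  set J : ℝ → V := fun t => t • w with hJ
  have dc : ∀ t, HasDerivAt c v t := fun t => by simpa using (hasDerivAt_id t).smul_const v
  have dJ : ∀ t, HasDerivAt J w t := fun t => by simpa using (hasDerivAt_id t).smul_const w
  have ec : deriv c = fun _ => v := funext fun t => (dc t).deriv
  have eJ : deriv J = fun _ => w := funext fun t => (dJ t).deriv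
  have jac : ∀ t, DifferentiableAt ℝ (covD H c J) t ∧
      covD H c (covD H c J) t = -(κ * ⟪v, v⟫) • J t := fun t => by
    obtain ⟨a, b⟩ := h.jacobi_of_linearized (c := c) (J := J) (t := t) (mem_univ _)
      (Eventually.of_forall fun s => ⟨(dc s).differentiableAt, by rw [ec]; fun_prop, by
        rw [ec, deriv_const, ← chrisB_apply, chris_rad h hG, neg_zero]⟩)
      (Eventually.of_forall fun s => (dJ s).differentiableAt)
      (by rw [ec, eJ, lin_rad h hG, neg_zero]; exact hasDerivAt_const _ _)
    refine ⟨a, ?_⟩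
    rw [curv_form h hK, ec] at b
    have e1 : H (c t) v v = ⟪v, v⟫ := ray h hG t v v
    have e2 : H (c t) (J t) v = 0 := by
      rw [h.symm _ (mem_univ _), hJ]
      simp only [map_smul, smul_eq_mul]
      rw [show H (c t) v w = ⟪v, w⟫ from ray h hG t v w, hvw, mul_zero]
    rw [e1, e2, mul_zero, zero_smul, sub_zero] at b
    rw [neg_smul]
    exact eq_neg_of_add_eq_zero_left b
  refine ⟨fun t => (H (c t) (J t) (J t), H (c t) (J t) (covD H c J t),
    H (c t) (covD H c J t) (covD H c J t)), fun t => ?_, ?_, ?_⟩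
  · have a1 := h.hasDerivAt_inner (mem_univ (c t)) (dc t).differentiableAt (dJ t).differentiableAt
      (dJ t).differentiableAt
    have a2 := h.hasDerivAt_inner (mem_univ (c t)) (dc t).differentiableAt (dJ t).differentiableAt
      (jac t).1
    have a3 := h.hasDerivAt_inner (mem_univ (c t)) (dc t).differentiableAt (jac t).1 (jac t).1
    refine (a1.prodMk (a2.prodMk a3)).congr_deriv ?_
    rw [(jac t).2]
    simp only [sys, map_smul, ContinuousLinearMap.smul_apply, smul_eq_mul,
      h.symm _ (mem_univ _) (covD H c J t) (J t), ContinuousLinearMap.prod_apply,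
      ContinuousLinearMap.comp_apply, ContinuousLinearMap.coe_fst', ContinuousLinearMap.coe_snd',
      ContinuousLinearMap.sub_apply, Prod.mk.injEq]
    exact ⟨by ring, by ring, by ring⟩
  · have e : covD H c J 0 = w := by
      rw [covD, eJ, ← chrisB_apply]
      simp [hJ]
    have e0 : H (c 0) w w = ⟪w, w⟫ := by simpa [hc] using ray h hG 0 w w
    simp only [e, e0]
    simp [hJ]
  · simp [hc, hJ]

theorem cc {n : ℕ} {κ : ℝ} : Vale.Agent.P219W.CC n κ := by
  intro H₁ H₂ h₁ h₂ G₁ G₂ K₁ K₂
  have perp : ∀ v w, ⟪v, w⟫ = 0 → H₁ v w w = H₂ v w w := fun v w hvw => by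
    obtain ⟨y, a1, a2, a3⟩ := sol h₁ G₁ K₁ hvw
    obtain ⟨z, b1, b2, b3⟩ := sol h₂ G₂ K₂ hvw
    have := ODE_solution_unique_univ (v := fun _ p => sys (κ * ⟪v, v⟫) p) (s := fun _ => univ)
      (fun _ => (sys _).lipschitz.lipschitzOnWith) (fun t => ⟨a1 t, trivial⟩)
      (fun t => ⟨b1 t, trivial⟩) (a2.trans b2.symm)
    rw [← a3, ← b3, this]
  have diag : ∀ v w, H₁ v w w = H₂ v w w := fun v w => by
    by_cases hv : v = 0
    · exact perp v w (by simp [hv])
    have hvv : ⟪v, v⟫ ≠ 0 := fun e => hv (inner_self_eq_zero.1 e)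
    have hp := perp v (w - (⟪v, w⟫ / ⟪v, v⟫) • v) (by
      rw [inner_sub_right, inner_smul_right, div_mul_cancel₀ _ hvv, sub_self])
    simp only [map_sub, map_smul, ContinuousLinearMap.sub_apply, ContinuousLinearMap.smul_apply,
      smul_eq_mul, h₁.symm v (mem_univ _) w v, h₂.symm v (mem_univ _) w v, G₁, G₂] at hp
    linarith
  funext v
  ext w z
  have e := diag v (w + z)
  simp only [map_add, ContinuousLinearMap.add_apply, h₁.symm v (mem_univ _) z w,
    h₂.symm v (mem_univ _) z w, diag v w, diag v z] at e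
  linarith

end Vale.Agent.P219W78
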